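import Vale.Agent.P281.H225.TL.VolS
import Vale.Agent.P281.H64.TK.Glob
import Vale.Agent.P281.H603.K.Fib

/-!
# P281, project T-L, block B2 (helper225): the fibres over `Y ∖ S` have the same volume
-/

open Set Filter Metric MeasureTheory Vale.Agent.P281 Vale.Agent.P281.H713 Vale.Agent.P272.K
open scoped Topology ContDiff Manifold ComplexConjugate ComplexOrder

set_option linter.unusedSectionVars false

noncomputable section

namespace Vale.Agent.P281.H225.TL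

open Vale.Agent.P281.H64.TK Vale.Agent.P281.H864.K Vale.Agent.P281.H969.TL
open Vale.Agent.P281.H603.K (kah_fib)

section
variable {p d : ℕ} {Z Y : Type} [TopologicalSpace Z] [T2Space Z] [ChartedSpace (Cm (p + d)) Z]
  [IsManifold 𝓘(ℂ, Cm (p + d)) ω Z] [TopologicalSpace Y] [T2Space Y] [ChartedSpace (Cm p) Y]
  [IsManifold 𝓘(ℂ, Cm p) ω Y]

/-- two models at the same point -/
theorem vol_cmp (I : Inputs) (hd : 0 < d) {f : Z → Y}
    (hf : ContMDiff 𝓘(ℂ, Cm (p + d)) 𝓘(ℂ, Cm p) ω f)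
    {w : Chart (p + d) Z → Cm (p + d) → Matrix (Fin (p + d)) (Fin (p + d)) ℂ} (hw : IsKahler w)
    {E Γ : Type} [TopologicalSpace E] [T2Space E] [SimplyConnectedSpace E]
    [Group Γ] [MulAction Γ E] [ContinuousConstSMul Γ E] {𝓕 : Fam p d E Γ}
    {q : Cm p → E → Z} {χ : OpenPartialHomeomorph Y (Cm p)}
    {E' Γ' : Type} [TopologicalSpace E'] [T2Space E'] [SimplyConnectedSpace E']
    [Group Γ'] [MulAction Γ' E'] [ContinuousConstSMul Γ' E'] {𝓕' : Fam p d E' Γ'}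
    {q' : Cm p → E' → Z} {χ' : OpenPartialHomeomorph Y (Cm p)}
    (hM : Model (n := p + d) f 𝓕 χ q) (hM' : Model (n := p + d) f 𝓕' χ' q')
    {W : Fin 𝓕.N → Cm p × Cm d → Matrix (Fin p ⊕ Fin d) (Fin p ⊕ Fin d) ℂ}
    {W' : Fin 𝓕'.N → Cm p × Cm d → Matrix (Fin p ⊕ Fin d) (Fin p ⊕ Fin d) ℂ}
    (hW : IsPull w 𝓕 q W) (hW' : IsPull w 𝓕' q' W') (hK : KFam 𝓕 W) (hK' : KFam 𝓕' W')
    {t t' : Cm p} (ht : t ∈ 𝓕.T) (ht' : t' ∈ 𝓕'.T) (hy : χ.symm t = χ'.symm t') :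
    volS (𝓕'.at t' ht') (fibW W' t') = volS (𝓕.at t ht) (fibW W t) := by
  obtain ⟨τ, ρ, hτ, -, hc, hm⟩ := compareK I hd hf hw hM hM' hW hW' ht ht' hy
  exact (volS_pull (S' := 𝓕'.at t' ht') (τ := τ) (ρ := ρ) (hτ := hτ) (fibW W' t')).symm.trans
    (volS_inv (kah_fib hK ht) (kah_pull (kah_fib hK' ht')) hc hm)

/-- the metric of the family is determined by `w` -/
theorem pull_unique
    {w : Chart (p + d) Z → Cm (p + d) → Matrix (Fin (p + d)) (Fin (p + d)) ℂ}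
    {E Γ : Type} [TopologicalSpace E] [Group Γ] [MulAction Γ E] {𝓕 : Fam p d E Γ}
    {q : Cm p → E → Z}
    {W W' : Fin 𝓕.N → Cm p × Cm d → Matrix (Fin p ⊕ Fin d) (Fin p ⊕ Fin d) ℂ}
    (hW : IsPull w 𝓕 q W) (hW' : IsPull w 𝓕 q W') {t : Cm p} (ht : t ∈ 𝓕.T)
    {i : Fin 𝓕.N} {z : Cm d} (hz : z ∈ ball (0 : Cm d) 3) : W i (t, z) = W' i (t, z) := by
  have h1 : At (chartAt (Cm (p + d)) (q t (𝓕.σ i t z))) (q t (𝓕.σ i t z)) :=
    ⟨chart_mem_atlas _ _, mem_chart_source _ _⟩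
  rw [hW i t ht z hz _ h1, hW' i t ht z hz _ h1]

/-- some model at `y` has volume `v` -/
def VV (f : Z → Y) (w : Chart (p + d) Z → Cm (p + d) → Matrix (Fin (p + d)) (Fin (p + d)) ℂ)
    (v : ℝ) (y : Y) : Prop :=
  ∃ (E Γ : Type) (_ : TopologicalSpace E) (_ : T2Space E) (_ : SimplyConnectedSpace E)
    (_ : Group Γ) (_ : MulAction Γ E) (_ : ContinuousConstSMul Γ E) (𝓕 : Fam p d E Γ)
    (q : Cm p → E → Z) (χ : OpenPartialHomeomorph Y (Cm p)) (t : Cm p) (ht : t ∈ 𝓕.T)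
    (W : Fin 𝓕.N → Cm p × Cm d → Matrix (Fin p ⊕ Fin d) (Fin p ⊕ Fin d) ℂ),
    Model (n := p + d) f 𝓕 χ q ∧ χ.symm t = y ∧ IsPull w 𝓕 q W ∧ KFam 𝓕 W ∧
      volS (𝓕.at t ht) (fibW W t) = v

/-- then all the models at `y` -/
theorem VV.all (I : Inputs) (hd : 0 < d) {f : Z → Y}
    (hf : ContMDiff 𝓘(ℂ, Cm (p + d)) 𝓘(ℂ, Cm p) ω f)
    {w : Chart (p + d) Z → Cm (p + d) → Matrix (Fin (p + d)) (Fin (p + d)) ℂ} (hw : IsKahler w)
    {v : ℝ} {y : Y} (h : VV (p := p) (d := d) f w v y)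
    {E' Γ' : Type} [TopologicalSpace E'] [T2Space E'] [SimplyConnectedSpace E']
    [Group Γ'] [MulAction Γ' E'] [ContinuousConstSMul Γ' E'] {𝓕' : Fam p d E' Γ'}
    {q' : Cm p → E' → Z} {χ' : OpenPartialHomeomorph Y (Cm p)}
    (M' : Model (n := p + d) f 𝓕' χ' q')
    {W' : Fin 𝓕'.N → Cm p × Cm d → Matrix (Fin p ⊕ Fin d) (Fin p ⊕ Fin d) ℂ}
    (hW' : IsPull w 𝓕' q' W') (hK' : KFam 𝓕' W')
    {t' : Cm p} (ht' : t' ∈ 𝓕'.T) (hy : χ'.symm t' = y) :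
    volS (𝓕'.at t' ht') (fibW W' t') = v := by
  obtain ⟨E, Γ, _, _, _, _, _, _, 𝓕, q, χ, t, ht, W, hM, hy', hW, hK, hv⟩ := h
  rw [← hv]
  exact vol_cmp I hd hf hw hM M' hW hW' hK hK' ht ht' (by rw [hy, hy'])

end

/-- **Block B2** -/
theorem vol_of (I : Inputs) (hF : VolFStmt) : VolStmt := by
  intro p d Z Y _ _ _ _ _ _ _ _ f S w hd hf hS hP hconn hw
  have hAB := I.ab p d Z Y f S hd hf hP
  -- the key property
  have key : ∀ y₀ ∉ S, ∃ U ∈ 𝓝 y₀, ∀ y ∈ U, ∀ y' ∈ U, ∀ v, VV (p := p) (d := d) f w v y →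
      VV (p := p) (d := d) f w v y' := by
    intro y₀ hy₀
    obtain ⟨E, Γ, _, _, _, _, _, _, 𝓕, q, hM, ht, -⟩ := hAB y₀ hy₀
    obtain ⟨W, hW, hK⟩ := I.w p d Z Y f w E Γ 𝓕 q _ hf hM hw
    set χ := chartAt (Cm p) y₀ with hχ
    have hU : χ.source ∩ χ ⁻¹' 𝓕.T ∈ 𝓝 y₀ :=
      (χ.isOpen_inter_preimage 𝓕.isOpen).mem_nhds ⟨mem_chart_source _ _, ht⟩
    refine ⟨_, hU, fun y hy y' hy' v h => ?_⟩
    have h1 := h.all I hd hf hw hM hW hK hy.2 (χ.left_inv hy.1)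
    have h2 := hF p d E Γ 𝓕 W hd hK (χ y) hy.2 (χ y') hy'.2
    exact ⟨E, Γ, inferInstance, inferInstance, inferInstance, inferInstance, inferInstance,
      inferInstance, 𝓕, q, χ, χ y', hy'.2, W, hM, χ.left_inv hy'.1, hW, hK, h2.symm.trans h1⟩
  by_cases hne : (Sᶜ : Set Y).Nonempty
  swap
  · refine ⟨0, fun E Γ _ _ _ _ _ _ 𝓕 q χ W hM hW t ht hy => ?_⟩
    exact absurd ⟨_, hy⟩ hne
  obtain ⟨y₁, hy₁⟩ := hne
  have hex : ∃ v, VV (p := p) (d := d) f w v y₁ := by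
    obtain ⟨E, Γ, _, _, _, _, _, _, 𝓕, q, hM, ht, -⟩ := hAB y₁ hy₁
    obtain ⟨W, hW, hK⟩ := I.w p d Z Y f w E Γ 𝓕 q _ hf hM hw
    exact ⟨_, E, Γ, inferInstance, inferInstance, inferInstance, inferInstance, inferInstance,
      inferInstance, 𝓕, q, _, _, ht, W, hM,
      (chartAt (Cm p) y₁).left_inv (mem_chart_source _ _), hW, hK, rfl⟩
  obtain ⟨v, hv₁⟩ := hex
  have hall : ∀ y ∉ S, VV (p := p) (d := d) f w v y := by
    -- two open sets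
    set A : Set Y := {y | y ∉ S ∧ VV (p := p) (d := d) f w v y} with hA
    set A' : Set Y := {y | y ∉ S ∧ ¬ VV (p := p) (d := d) f w v y} with hA'
    have hSo : IsOpen Sᶜ := hS.isOpen_compl
    have hAo : IsOpen A := by
      rw [isOpen_iff_mem_nhds]
      rintro y ⟨hy, hP⟩
      obtain ⟨U, hU, hUP⟩ := key y hy
      filter_upwards [hU, hSo.mem_nhds hy] with y' a b
      exact ⟨b, hUP y (mem_of_mem_nhds hU) y' a v hP⟩
    have hAo' : IsOpen A' := by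
      rw [isOpen_iff_mem_nhds]
      rintro y ⟨hy, hP⟩
      obtain ⟨U, hU, hUP⟩ := key y hy
      filter_upwards [hU, hSo.mem_nhds hy] with y' a b
      exact ⟨b, fun h => hP (hUP y' a y (mem_of_mem_nhds hU) v h)⟩
    intro y hy
    by_contra hcon
    obtain ⟨x, -, hx1, hx2⟩ := hconn A A' hAo hAo' (fun x hx => by
      by_cases h : VV (p := p) (d := d) f w v x
      · exact Or.inl ⟨hx, h⟩
      · exact Or.inr ⟨hx, h⟩) ⟨y₁, hy₁, hy₁, hv₁⟩ ⟨y, hy, hy, hcon⟩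
    exact hx2.2 hx1.2
  refine ⟨v, fun E Γ _ _ _ _ _ _ 𝓕 q χ W hM hW t ht hy => ?_⟩
  obtain ⟨W₀, hW₀, hK₀⟩ := I.w p d Z Y f w E Γ 𝓕 q χ hf hM hw
  rw [← (hall _ hy).all I hd hf hw hM hW₀ hK₀ ht rfl]
  unfold volS
  refine Finset.sum_congr rfl fun i _ => ?_
  refine setIntegral_congr_fun (meas_P (𝓕.at t ht) i) fun z hz => ?_
  have hz3 : z ∈ ball (0 : Cm d) 3 := P_subset3 (𝓕.at t ht) i hz
  have h0 : ∀ k : Fin 𝓕.N, W k (t, z) = W₀ k (t, z) := fun k => pull_unique hW hW₀ ht hz3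
  have h1 : ∀ k : Fin 𝓕.N, (fibW W t k z).det.re = (fibW W₀ t k z).det.re := by
    intro k
    unfold fibW
    rw [h0 k]
  exact h1 i

end Vale.Agent.P281.H225.TL
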