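import Vale.Agent.P281.H969.TL.Spec
import Vale.Agent.P281.H864.K.E1
import Vale.Agent.P281.H64.TK.Base

/-!
# P281, project T-L, block B2b (helper225): the volume does not depend on the sheets
-/

open Set Filter Metric MeasureTheory Vale.Agent.P281 Vale.Agent.P272.K
open scoped Topology ContDiff ComplexConjugate ComplexOrder

set_option linter.unusedSectionVars false

noncomputable section

namespace Vale.Agent.P281.H225.TL

open Vale.Agent.P281.H64.TK Vale.Agent.P281.H864.K Vale.Agent.P281.H969.TL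

variable {d : ℕ} {E Γ : Type} [TopologicalSpace E] [Group Γ] [MulAction Γ E]

theorem continuousOn_det {S : Sheets d E Γ} {w : Fin S.N → Cm d → Matrix (Fin d) (Fin d) ℂ}
    (hw : Kah S w) (i : Fin S.N) : ContinuousOn (fun z => (w i z).det.re) (ball 0 3) := by
  have h1 : ContinuousOn (fun z => w i z) (ball 0 3) :=
    continuousOn_pi.2 fun a => continuousOn_pi.2 fun b => (hw.smooth i a b).continuousOn
  have h3 : Continuous fun A : Matrix (Fin d) (Fin d) ℂ => A.det := continuous_id.matrix_det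
  exact Complex.continuous_re.comp_continuousOn (h3.comp_continuousOn h1)

/-- transformation rule of the density -/
theorem det_change {w w' J : Matrix (Fin d) (Fin d) ℂ}
    (h : w = J.transpose * w' * J.map conj) : w.det.re = ‖J.det‖ ^ 2 * w'.det.re := by
  have h1 : (J.map conj).det = conj J.det := (RingHom.map_det (starRingEnd ℂ) J).symm
  rw [h, Matrix.det_mul, Matrix.det_mul, Matrix.det_transpose, h1]
  have h2 : J.det * w'.det * conj J.det = ((‖J.det‖ ^ 2 : ℝ) : ℂ) * w'.det := by
    rw [mul_right_comm, Complex.mul_conj, Complex.normSq_eq_norm_sq]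
  rw [h2, Complex.re_ofReal_mul]

/-- **Block B2b** -/
theorem volS_inv [ContinuousConstSMul Γ E] {S S' : Sheets d E Γ}
    {w : Fin S.N → Cm d → Matrix (Fin d) (Fin d) ℂ}
    {w' : Fin S'.N → Cm d → Matrix (Fin d) (Fin d) ℂ} (hw : Kah S w) (hw' : Kah S' w')
    (hS : HolCompat S S') (hm : SameMetric S S' w w') : volS S' w' = volS S w := by
  unfold volS
  refine (sum_compat (holCompat_compat hS) (D := fun i z => (w i z).det.re)
    (D' := fun j z => (w' j z).det.re) (fun i => integrableOn_P S i (continuousOn_det hw i))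
    (fun i => integrableOn_P S' i (continuousOn_det hw' i)) ?_).symm
  intro i j z hz v hv γ ψ he hψ hψz hdet hev
  obtain ⟨θ, h1, h2, h3, h4⟩ := hS i j z hz v hv γ he
  have hψθ : ψ =ᶠ[𝓝 z] θ := by
    have a1 : ∀ᶠ u in 𝓝 z, ψ u ∈ ball (0 : Cm d) 3 :=
      hψ.continuousAt.eventually (isOpen_ball.mem_nhds (by rwa [hψz]))
    have a2 : ∀ᶠ u in 𝓝 z, θ u ∈ ball (0 : Cm d) 3 :=
      h1.continuousAt.eventually (isOpen_ball.mem_nhds (by rwa [h2]))
    filter_upwards [a1, a2, hev, h4] with u b1 b2 b3 b4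
    exact (uniq (S := S') (i := j) (γ := γ) (δ := γ) b1 b2 (b3.symm.trans b4)).2
  rw [hψθ.fderiv_eq, det_fderiv_real h1.differentiableAt, smul_eq_mul]
  exact det_change (hm i j z hz v hv γ θ h1 h2 h4)

theorem volSStmt : VolSStmt := by
  intro d E Γ _ _ _ _ _ _ S S' w w' _ hw hw' hS hm
  exact volS_inv hw hw' hS hm

/-- the volume of the pull-back -/
theorem volS_pull {E' Γ' : Type} [TopologicalSpace E'] [Group Γ'] [MulAction Γ' E']
    {S' : Sheets d E' Γ'} {τ : E ≃ₜ E'} {ρ : Γ ≃* Γ'} {hτ : ∀ γ e, τ (γ • e) = ρ γ • τ e}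
    (w : Fin S'.N → Cm d → Matrix (Fin d) (Fin d) ℂ) :
    volS (S'.pull τ ρ hτ) w = volS S' w := by
  show ∑ i : Fin S'.N, _ = ∑ i : Fin S'.N, _
  refine Finset.sum_congr rfl fun i _ => ?_
  rw [P_pull i]

end Vale.Agent.P281.H225.TL
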